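import Vale.Agent.P214.REG.Fin
import Vale.Agent.P214.WSEQ.Interp
import Vale.Agent.P214.STR.Props

/-!
# P214, target B, block B4-ACC: scaled interior bounds and scaled interpolation

* `Sol ε r u`: small exact minimal graph over the ball of radius `r`, all derivatives measured at
  scale `r` (the value itself is free);
* `reg_sol`: all derivatives on the ball of radius `3/4 r`;
* `interp_scaled`: interpolation with the radius `κ r h^{y/q}`;
* `tstR_scale`: test functions at a comparable scale.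
-/

open Set Filter Topology Metric MvPolynomial
open scoped ContDiff

namespace Vale.Agent.P214.BACC

open Vale.Agent.P214.REF Vale.Agent.P214.REG

noncomputable section

variable {m n : ℕ}

/-- small exact minimal graph over the ball of radius `r`, derivatives measured at scale `r` -/
structure Sol (ε r : ℝ) (u : Fin n → REF.E m → ℝ) : Prop where
  smooth : ∀ a, ContDiff ℝ ∞ (u a)
  small : ∀ a, ∀ k, 1 ≤ k → k ≤ 2 * m + 1 → ∀ x, ‖x‖ < r →
    ‖iteratedFDeriv ℝ k (u a) x‖ ≤ r * r⁻¹ ^ k * ε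
  exact : ∀ a x, ‖x‖ < r → REF.Mop u a x = 0

lemma scale_eq {r : ℝ} (hr : 0 < r) {k : ℕ} (hk : 1 ≤ k) : r * r⁻¹ ^ k = r⁻¹ ^ (k - 1) := by
  obtain ⟨j, rfl⟩ : ∃ j, k = j + 1 := ⟨k - 1, by omega⟩
  rw [Nat.add_sub_cancel, pow_succ]
  field_simp

/-- **scaled interior bounds** for small exact minimal graphs -/
theorem reg_sol (m n : ℕ) : ∃ ε : ℝ, 0 < ε ∧ ε ≤ 1 / 2 ∧ ∀ q : ℕ, ∃ C : ℝ, 1 ≤ C ∧
    ∀ (r : ℝ) (u : Fin n → REF.E m → ℝ), 0 < r → Sol ε r u → ∀ a, ∀ k, 1 ≤ k → k ≤ q →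
      ∀ x, ‖x‖ < 3 / 4 * r → ‖iteratedFDeriv ℝ k (u a) x‖ ≤ r * r⁻¹ ^ k * C := by
  obtain ⟨ε0, h0, hA, -, -⟩ := exists_reg_minimal m n
  refine ⟨min ε0 (1 / 2), lt_min h0 (by norm_num), min_le_right _ _, fun q => ?_⟩
  obtain ⟨C, hC, hb⟩ := hA q
  refine ⟨C * 4 ^ q, ?_, fun r u hr hu a k hk1 hkq x hx => ?_⟩
  · have : (1:ℝ) ≤ 4 ^ q := one_le_pow₀ (by norm_num)
    nlinarith
  have hr2 : 0 < r / 2 := by positivity
  have hin : ∀ y : REF.E m, ‖y‖ < 1 / 2 → ‖REG.aff x (r / 2) y‖ < r := by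
    intro y hy
    unfold REG.aff
    calc ‖x + (r / 2) • y‖ ≤ ‖x‖ + ‖(r / 2) • y‖ := norm_add_le _ _
      _ = ‖x‖ + r / 2 * ‖y‖ := by rw [norm_smul, Real.norm_eq_abs, abs_of_pos hr2]
      _ < 3 / 4 * r + r / 2 * (1 / 2) := by gcongr
      _ = r := by ring
  have hmin : MinAt ε0 (0 : REF.E m) (1 / 2) fun b => resc x (r / 2) (u b) := by
    refine ⟨fun b => contDiff_resc (hu.smooth b) x (r / 2), fun b k hk1 hk2 y hy => ?_,
      fun b y hy => ?_⟩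
    · rw [sub_zero] at hy
      refine (norm_iter_resc (hu.smooth b) x hr2 hk1 y).trans ?_
      have h1 := hu.small b k hk1 hk2 _ (hin y hy)
      rw [scale_eq hr hk1] at h1
      have h2 : (r / 2) ^ (k - 1) ≤ r ^ (k - 1) := by gcongr; linarith
      calc (r / 2) ^ (k - 1) * ‖iteratedFDeriv ℝ k (u b) (REG.aff x (r / 2) y)‖
          ≤ r ^ (k - 1) * (r⁻¹ ^ (k - 1) * min ε0 (1 / 2)) := by gcongr
        _ = min ε0 (1 / 2) := by
            rw [← mul_assoc, ← mul_pow, mul_inv_cancel₀ hr.ne', one_pow, one_mul]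
        _ ≤ ε0 := min_le_left _ _
    · rw [sub_zero] at hy
      rw [← Qop_cp, Qop_resc _ hu.smooth x hr2, Qop_cp, hu.exact b _ (hin y hy), mul_zero]
  have h1 := hb 0 (1 / 2) _ (by norm_num) le_rfl hmin a k hk1 hkq
  have h2 := norm_iter_le_resc (hu.smooth a) x hr2 hk1 0
  have e1 : REG.aff x (r / 2) (0 : REF.E m) = x := by simp [REG.aff]
  rw [e1] at h2
  rw [scale_eq hr hk1]
  calc ‖iteratedFDeriv ℝ k (u a) x‖
      ≤ (r / 2)⁻¹ ^ (k - 1) * (C * (1 / 2)⁻¹ ^ (k - 1)) := h2.trans (by gcongr)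
    _ = r⁻¹ ^ (k - 1) * (C * 4 ^ (k - 1)) := by
        have e2 : (r / 2)⁻¹ = 2 * r⁻¹ := by rw [inv_div]; ring
        have e3 : (4:ℝ) ^ (k - 1) = 2 ^ (k - 1) * 2 ^ (k - 1) := by rw [← mul_pow]; norm_num
        rw [e2, mul_pow, e3]
        norm_num
        ring
    _ ≤ r⁻¹ ^ (k - 1) * (C * 4 ^ q) := by
        gcongr
        · norm_num
        · omega

/-- **interpolation at scale** `r`, with the radius `κ r h^{y/q}` -/
theorem interp_scaled (m q j : ℕ) (hj : j < q) : ∃ K : ℝ, 1 ≤ K ∧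
    ∀ (f : REF.E m → ℝ) (x : REF.E m) (r κ y h B : ℝ), 0 < r → 0 < κ → κ ≤ 1 → 0 < h → h ≤ 1 →
      0 ≤ y → ContDiff ℝ ∞ f → (∀ z, ‖z - x‖ ≤ κ * r → |f z| ≤ r * h ^ y) →
      (∀ z, ‖z - x‖ ≤ κ * r → ‖iteratedFDeriv ℝ q f z‖ ≤ r * r⁻¹ ^ q * B) →
      ‖iteratedFDeriv ℝ j f x‖ ≤ K * (κ⁻¹ ^ j + B) * (r * r⁻¹ ^ j * h ^ (y * (1 - j / q))) := by
  obtain ⟨K, hK0, hK⟩ := WSEQ.interp (E := REF.E m) q j hj
  refine ⟨max K 1, le_max_right _ _, ?_⟩
  intro f x r κ y h B hr hκ hκ1 h0 h1 hy hf hA hB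
  have hq : (0:ℝ) < q := by exact_mod_cast (by omega : 0 < q)
  have hs0 : 0 < h ^ (y / q) := Real.rpow_pos_of_pos h0 _
  have hs1 : h ^ (y / q) ≤ 1 := Real.rpow_le_one h0.le h1 (by positivity)
  set ρ : ℝ := κ * r * h ^ (y / q) with hρd
  have hρ : 0 < ρ := by positivity
  have hρle : ρ ≤ κ * r := mul_le_of_le_one_right (by positivity) hs1
  have hB0 : 0 ≤ r * r⁻¹ ^ q * B := (norm_nonneg _).trans (hB x (by simpa using by positivity))
  have hB0' : 0 ≤ B := by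
    have : 0 < r * r⁻¹ ^ q := by positivity
    exact nonneg_of_mul_nonneg_right hB0 this
  have h2 := hK f x ρ (r * h ^ y) (r * r⁻¹ ^ q * B) hρ hf
    (fun z hz => by rw [Real.norm_eq_abs]; exact hA z (hz.trans hρle))
    (fun z hz => hB z (hz.trans hρle))
  refine h2.trans ?_
  have e1 : r * h ^ y * ρ⁻¹ ^ j = κ⁻¹ ^ j * (r * r⁻¹ ^ j * h ^ (y * (1 - j / q))) := by
    have : (h ^ (y / q))⁻¹ ^ j = h ^ (-(y / q * j)) := by
      rw [← Real.rpow_neg h0.le, ← Real.rpow_natCast, ← Real.rpow_mul h0.le]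
      congr 1; ring
    rw [hρd, mul_inv, mul_inv, mul_pow, mul_pow, this]
    have e : h ^ (y * (1 - j / q)) = h ^ y * h ^ (-(y / q * j)) := by
      rw [← Real.rpow_add h0]; congr 1; ring
    rw [e]; ring
  have e2 : r * r⁻¹ ^ q * B * ρ ^ (q - j) ≤ B * (r * r⁻¹ ^ j * h ^ (y * (1 - j / q))) := by
    have e3 : (h ^ (y / q)) ^ (q - j) = h ^ (y * (1 - j / q)) := by
      rw [← Real.rpow_natCast, ← Real.rpow_mul h0.le]
      congr 1
      rw [Nat.cast_sub hj.le]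
      field_simp
    have e4 : r⁻¹ ^ q * r ^ (q - j) = r⁻¹ ^ j := by
      have : q = (q - j) + j := by omega
      conv_lhs => rw [this]
      rw [pow_add]
      have : (q - j + j - j) = q - j := by omega
      rw [this, mul_comm (r⁻¹ ^ (q - j)), mul_assoc, ← mul_pow, inv_mul_cancel₀ hr.ne', one_pow,
        mul_one]
    have e5 : κ ^ (q - j) ≤ 1 := pow_le_one₀ hκ.le hκ1
    rw [hρd, mul_pow, mul_pow, e3]
    calc r * r⁻¹ ^ q * B * (κ ^ (q - j) * r ^ (q - j) * h ^ (y * (1 - j / q)))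
        = κ ^ (q - j) * (B * (r * (r⁻¹ ^ q * r ^ (q - j)) * h ^ (y * (1 - j / q)))) := by ring
      _ ≤ 1 * (B * (r * (r⁻¹ ^ q * r ^ (q - j)) * h ^ (y * (1 - j / q)))) := by gcongr
      _ = _ := by rw [e4, one_mul]
  have h3 : 0 ≤ r * h ^ y * ρ⁻¹ ^ j + r * r⁻¹ ^ q * B * ρ ^ (q - j) := by positivity
  calc K * (r * h ^ y * ρ⁻¹ ^ j + r * r⁻¹ ^ q * B * ρ ^ (q - j))
      ≤ max K 1 * (r * h ^ y * ρ⁻¹ ^ j + r * r⁻¹ ^ q * B * ρ ^ (q - j)) := by
        gcongr; exact le_max_left _ _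
    _ ≤ max K 1 * (κ⁻¹ ^ j * (r * r⁻¹ ^ j * h ^ (y * (1 - j / q)))
          + B * (r * r⁻¹ ^ j * h ^ (y * (1 - j / q)))) := by
        rw [e1]; gcongr
    _ = _ := by ring

/-- test functions at scale `r`, supported in the ball of radius `ρ`, are test functions at the
larger scale `r'` with the larger radius `ρ'` -/
lemma tstR_scale {K : ℕ} {r ρ r' ρ' M : ℝ} {φ : Fin n → REF.E m → ℝ} (hr : 0 < r) (hrr : r ≤ r')
    (hρρ : ρ ≤ ρ') (hM : 0 ≤ M) (h : STR.TstR K r ρ M φ) :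
    STR.TstR K r' ρ' (M * (r' / r) ^ K) φ where
  smooth := h.smooth
  supp a x hx := h.supp a x (hρρ.trans hx)
  bd a k hk x := by
    have hr' : 0 < r' := hr.trans_le hrr
    refine (h.bd a k hk x).trans ?_
    have h1 : r⁻¹ ^ k = (r' / r) ^ k * r'⁻¹ ^ k := by
      rw [← mul_pow]; congr 1; field_simp
    have h2 : (r' / r) ^ k ≤ (r' / r) ^ K :=
      pow_le_pow_right₀ (by rw [one_le_div hr]; exact hrr) hk
    rw [h1, ← mul_assoc]
    gcongr

end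

end Vale.Agent.P214.BACC
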