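import Vale.Agent.P214.BACC.Scal
import Vale.Agent.P214.WSEQ.W6

/-!
# P214, target B, block B4-ACC: difference of two exact references over the same plane

Two small exact references over the same plane on `B_r`, both weakly average free (test functions
`TstR K r r M`, bounds `C₀ r^{m+1} h^b M`), differ by `r^{1-k} h^{a-δ}` on `B_{r/2}`, for all
derivatives of order `k ≤ k₀`, provided `a + δ (K + m + 1) < b`.  Theorem `acc_two`.
-/

open Set Filter Topology MeasureTheory Metric Matrix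
open scoped RealInnerProductSpace ENNReal ContDiff

namespace Vale.Agent.P214.BACC

open WIN STR WSEQ

noncomputable section

variable {m n : ℕ}
variable {E : Type*} [NormedAddCommGroup E] [InnerProductSpace ℝ E] [FiniteDimensional ℝ E]
  [MeasurableSpace E] [BorelSpace E] {T : Submodule ℝ E}

/-- iterated derivatives of a difference -/
lemma norm_iter_sub_le {f g : REF.E m → ℝ} (hf : ContDiff ℝ ∞ f) (hg : ContDiff ℝ ∞ g) (k : ℕ)
    (x : REF.E m) : ‖iteratedFDeriv ℝ k (fun x => f x - g x) x‖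
      ≤ ‖iteratedFDeriv ℝ k f x‖ + ‖iteratedFDeriv ℝ k g x‖ := by
  have h1 : iteratedFDeriv ℝ k (fun x => f x - g x) x
      = iteratedFDeriv ℝ k f x - iteratedFDeriv ℝ k g x :=
    iteratedFDeriv_sub_apply ((hf.of_le (by exact_mod_cast le_top)).contDiffAt)
      ((hg.of_le (by exact_mod_cast le_top)).contDiffAt)
  rw [h1]
  exact norm_sub_le _ _

/-- value of the difference, from a bound of the first derivative -/
lemma sup_step {ν : Measure E} [IsFiniteMeasure ν] (F : Frame m n T) {R H : ℝ}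
    (hslab : ∀ᵐ y ∂ν, T.starProjection y ∈ ball (0 : E) R → ‖y - T.starProjection y‖ ≤ H)
    {u₁ u₂ : Fin n → REF.E m → ℝ} (hu₁ : ∀ a, ContDiff ℝ ∞ (u₁ a))
    (hu₂ : ∀ a, ContDiff ℝ ∞ (u₂ a)) {K : ℕ} {C : ℝ}
    (hC : ∀ k ≤ K, ∀ (x₀ : REF.E m) (ρ : ℝ), 0 < ρ →
      ∀ x, ‖iteratedFDeriv ℝ k (eta x₀ ρ) x‖ ≤ C * ρ⁻¹ ^ k) (hC0 : 0 ≤ C)
    {r h b δ C₀ c₁ : ℝ} (hr : 0 < r) (hrR : r ≤ R) (h0 : 0 < h) (h1 : h ≤ 1) (hδ : 0 ≤ δ)
    (hC₀ : 0 ≤ C₀) (hc₁ : 0 < c₁)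
    (hw1 : ∀ (φ : Fin n → REF.E m → ℝ) (M : ℝ), TstR K r r M φ →
      |∫ y, ∑ a, φ a (F.xc y) * F.ht u₁ a y ∂ν| ≤ C₀ * (r ^ (m + 1) * h ^ b) * M)
    (hw2 : ∀ (φ : Fin n → REF.E m → ℝ) (M : ℝ), TstR K r r M φ →
      |∫ y, ∑ a, φ a (F.xc y) * F.ht u₂ a y ∂ν| ≤ C₀ * (r ^ (m + 1) * h ^ b) * M)
    {x₀ : REF.E m} (hx₀ : ‖x₀‖ + r * h ^ δ ≤ r)
    (hI : c₁ * (r * h ^ δ) ^ m ≤ ∫ y, eta x₀ (r * h ^ δ) (F.xc y) ∂ν) (a : Fin n) {L : ℝ}
    (hL : ∀ x, ‖x - x₀‖ < r * h ^ δ →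
      ‖iteratedFDeriv ℝ 1 (fun x => u₂ a x - u₁ a x) x‖ ≤ L) :
    |u₂ a x₀ - u₁ a x₀|
      ≤ 2 * C / c₁ * C₀ * (r * h ^ (b - δ * (K + m + 1))) + L * (r * h ^ δ) := by
  have hρ : 0 < r * h ^ δ := mul_pos hr (Real.rpow_pos_of_pos h0 _)
  have hρr : r * h ^ δ ≤ r := mul_le_of_le_one_right hr.le (Real.rpow_le_one h0.le h1 hδ)
  have hL0 : 0 ≤ L := (norm_nonneg _).trans (hL x₀ (by simpa using hρ))
  have hd : ContDiff ℝ ∞ (fun x => u₂ a x - u₁ a x) := (hu₂ a).sub (hu₁ a)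
  have hosc : ∀ x, ‖x - x₀‖ < r * h ^ δ →
      |(u₂ a x - u₁ a x) - (u₂ a x₀ - u₁ a x₀)| ≤ L * (r * h ^ δ) := by
    intro x hx
    have e3 := Convex.norm_image_sub_le_of_norm_fderiv_le (𝕜 := ℝ)
      (s := ball x₀ (r * h ^ δ)) (C := L) (f := fun x => u₂ a x - u₁ a x)
      (fun z _ => (hd.differentiable (by simp)) z) (fun z hz => by
        have := hL z (by rwa [mem_ball, dist_eq_norm] at hz)
        rwa [norm_iteratedFDeriv_one] at this)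
      (convex_ball _ _) (x := x₀) (y := x) (mem_ball_self hρ)
      (by rwa [mem_ball, dist_eq_norm])
    rw [Real.norm_eq_abs] at e3
    exact e3.trans (by gcongr)
  have hw : ∀ M : ℝ, C₀ * (r ^ (m + 1) * h ^ b) * M = r ^ (m + 1) * (C₀ * h ^ b) * M :=
    fun M => by ring
  have hacc := acc_sup F hslab hu₁ hu₂ hC hC0 (B₀ := r ^ (m + 1) * (C₀ * h ^ b))
    (B₁ := r ^ (m + 1) * (C₀ * h ^ b)) (r₀ := r) (r₁ := r) (ρ₀ := r) (ρ₁ := r)
    (fun φ M hφ => (hw1 φ M hφ).trans_eq (hw M)) (fun φ M hφ => (hw2 φ M hφ).trans_eq (hw M))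
    hρ hρr hρr hx₀ hx₀ (hx₀.trans hrR) a hosc
  set q : ℝ := h ^ (-δ) with hqd
  have hq : 1 ≤ q := Real.one_le_rpow_of_pos_of_le_one_of_nonpos h0 h1 (by linarith)
  have hrq1 : r ≤ q * (r * h ^ δ) := by
    have : q * (r * h ^ δ) = r := by
      rw [hqd, mul_comm r, ← mul_assoc, ← Real.rpow_add h0, neg_add_cancel, Real.rpow_zero, one_mul]
    exact this.ge
  have hrq2 : r ≤ q * r := by nlinarith
  have hw0 : 0 ≤ C₀ * h ^ b := mul_nonneg hC₀ (Real.rpow_nonneg h0.le _)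
  have hfin := alg_sup (K := K) (m := m) (C := C) (c₀ := 2 * c₁) hρ hr le_rfl hq hrq1 hrq2 hw0
    le_rfl hC0 (by positivity) (by rwa [mul_div_cancel_left₀ _ (two_ne_zero)]) hacc
  refine hfin.trans (le_of_eq ?_)
  have e1 : h ^ (b - δ * (K + m + 1)) = h ^ b * q ^ (K + m + 1) := by
    rw [hqd, ← Real.rpow_natCast, ← Real.rpow_mul h0.le, ← Real.rpow_add h0]
    congr 1; push_cast; ring
  rw [e1]
  field_simp
  ring

/-- two small exact references over the same plane, weakly average free on `B_r` at the height `h` -/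
structure Two (m n K : ℕ) (T : Submodule ℝ E) (F : Frame m n T) (ν : Measure E)
    (ε b δ C₀ c₁ r h : ℝ) (u₁ u₂ : Fin n → REF.E m → ℝ) : Prop where
  fin : IsFiniteMeasure ν
  slab : ∃ H, ∀ᵐ y ∂ν, T.starProjection y ∈ ball (0 : E) r → ‖y - T.starProjection y‖ ≤ H
  sol₁ : Sol ε r u₁
  sol₂ : Sol ε r u₂
  weak₁ : ∀ (φ : Fin n → REF.E m → ℝ) (M : ℝ), TstR K r r M φ →
    |∫ y, ∑ a, φ a (F.xc y) * F.ht u₁ a y ∂ν| ≤ C₀ * (r ^ (m + 1) * h ^ b) * M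
  weak₂ : ∀ (φ : Fin n → REF.E m → ℝ) (M : ℝ), TstR K r r M φ →
    |∫ y, ∑ a, φ a (F.xc y) * F.ht u₂ a y ∂ν| ≤ C₀ * (r ^ (m + 1) * h ^ b) * M
  mass : ∀ x₀, ‖x₀‖ + r * h ^ δ ≤ r →
    c₁ * (r * h ^ δ) ^ m ≤ ∫ y, eta x₀ (r * h ^ δ) (F.xc y) ∂ν

/-- choice of the numbers: `N` rounds, order `q` of the interpolation, relative collar `κ` -/
lemma exists_num {a δ : ℝ} (ha : 0 < a) (hδ : 0 < δ) (k₀ : ℕ) : ∃ (N q : ℕ) (κ : ℝ), 1 ≤ N ∧
    a ≤ N * δ / 4 ∧ k₀ + 2 ≤ q ∧ 4 * a * (k₀ + 1) ≤ q * δ ∧ 0 < κ ∧ κ ≤ 1 / 8 ∧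
    κ * N ≤ 1 / 8 - κ := by
  have hN : 4 * a / δ ≤ (⌈4 * a / δ⌉₊ : ℝ) := Nat.le_ceil _
  have hq : 4 * a * (k₀ + 1) / δ ≤ (⌈4 * a * (k₀ + 1) / δ⌉₊ : ℝ) := Nat.le_ceil _
  have hN1 : 1 ≤ ⌈4 * a / δ⌉₊ := Nat.one_le_ceil_iff.2 (by positivity)
  generalize ⌈4 * a / δ⌉₊ = N at *
  generalize ⌈4 * a * (k₀ + 1) / δ⌉₊ = q at *
  have hN0 : (0:ℝ) ≤ N := Nat.cast_nonneg N
  refine ⟨N, q + k₀ + 2, 1 / (8 * (N + 1)), hN1, ?_, by omega, ?_, by positivity, ?_, ?_⟩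
  · rw [div_le_iff₀ hδ] at hN; linarith
  · rw [div_le_iff₀ hδ] at hq
    have : (0:ℝ) ≤ k₀ * δ := by positivity
    push_cast
    nlinarith
  · exact one_div_le_one_div_of_le (by norm_num) (by linarith)
  · have : (1 / (8 * ((N:ℝ) + 1))) * (8 * (N + 1)) = 1 := by field_simp
    linarith

/-- absorption in one half step -/
lemma absorb {h a b' y δ D W r X : ℝ} (h0 : 0 < h) (h1 : h ≤ 1) (hr : 0 < r)
    (hW : 2 * W * h ^ b' ≤ h ^ a) (hD : D * h ^ (δ / 2) ≤ 1 / 2)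
    (hX : X ≤ W * (r * h ^ b') + D * h ^ (y - δ / 4) * (r * h ^ δ)) :
    X ≤ r * h ^ min a (y + δ / 4) := by
  have e2 : D * h ^ (y - δ / 4) * (r * h ^ δ) = r * (D * h ^ (δ / 2) * h ^ (y + δ / 4)) := by
    have : h ^ (y - δ / 4) * h ^ δ = h ^ (δ / 2) * h ^ (y + δ / 4) := by
      rw [← Real.rpow_add h0, ← Real.rpow_add h0]; congr 1; ring
    calc D * h ^ (y - δ / 4) * (r * h ^ δ) = r * (D * (h ^ (y - δ / 4) * h ^ δ)) := by ring
      _ = _ := by rw [this]; ring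
  have e3 : h ^ a ≤ h ^ min a (y + δ / 4) := rpow_anti h0 h1 (min_le_left _ _)
  have e4 : h ^ (y + δ / 4) ≤ h ^ min a (y + δ / 4) := rpow_anti h0 h1 (min_le_right _ _)
  have e5 : 0 ≤ h ^ (y + δ / 4) := Real.rpow_nonneg h0.le _
  have e6 : D * h ^ (δ / 2) * h ^ (y + δ / 4) ≤ 1 / 2 * h ^ (y + δ / 4) :=
    mul_le_mul_of_nonneg_right hD e5
  have e7 : r * (2 * W * h ^ b') ≤ r * h ^ a := mul_le_mul_of_nonneg_left hW hr.le
  have e8 : r * (D * h ^ (δ / 2) * h ^ (y + δ / 4)) ≤ r * (1 / 2 * h ^ (y + δ / 4)) :=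
    mul_le_mul_of_nonneg_left e6 hr.le
  have e9 := mul_le_mul_of_nonneg_left e3 hr.le
  have e10 := mul_le_mul_of_nonneg_left e4 hr.le
  rw [e2] at hX
  linarith

/-- **the iteration**, abstract form -/
lemma iterate {d : REF.E m → ℝ} {N q : ℕ} {a δ κ D r h : ℝ} (ha : 0 < a) (hδ : 0 < δ)
    (hN1 : 1 ≤ N) (hN' : a ≤ N * δ / 4) (hq2 : 2 ≤ q) (hq : 4 * a ≤ q * δ) (hκ : 0 < κ)
    (hκN : κ * N ≤ 1 / 8 - κ) (hD1 : 1 ≤ D) (hr : 0 < r) (h0 : 0 < h) (h1 : h ≤ 1)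
    (hδκ : h ^ δ ≤ κ)
    (base : ∀ x, ‖x‖ < r → ‖iteratedFDeriv ℝ 1 d x‖ ≤ 1)
    (half : ∀ (y : ℝ) (x₀ : REF.E m), ‖x₀‖ + r * h ^ δ ≤ r →
      (∀ x, ‖x - x₀‖ < r * h ^ δ → ‖iteratedFDeriv ℝ 1 d x‖ ≤ D * h ^ (y - δ / 4)) →
      |d x₀| ≤ r * h ^ min a (y + δ / 4))
    (inter : ∀ (y R : ℝ), 0 ≤ y → R ≤ 3 / 4 * r → (∀ z : REF.E m, ‖z‖ < R → |d z| ≤ r * h ^ y) →
      ∀ j < q, ∀ x : REF.E m, ‖x‖ < R - κ * r →
      ‖iteratedFDeriv ℝ j d x‖ ≤ D * (r * r⁻¹ ^ j * h ^ (y * (1 - j / q))))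
    (z : REF.E m) (hz : ‖z‖ < r * (1 / 2 + 2 * κ)) : |d z| ≤ r * h ^ a := by
  have hq0 : (0:ℝ) < q := by exact_mod_cast (by omega : 0 < q)
  have hρκ : r * h ^ δ ≤ κ * r := by
    rw [mul_comm κ]; exact mul_le_mul_of_nonneg_left hδκ hr.le
  have hκ8 : κ * r ≤ 1 / 8 * r := by
    have : 0 ≤ κ * N := by positivity
    exact mul_le_mul_of_nonneg_right (by linarith) hr.le
  have hκr : 0 < κ * r := by positivity
  have iter : ∀ j : ℕ, j < N → ∀ (z : REF.E m), ‖z‖ < 3 / 4 * r - 2 * (κ * r) * (j + 1) →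
      |d z| ≤ r * h ^ min a ((j + 1) * δ / 4) := by
    intro j
    induction j with
    | zero =>
      intro _ z hz
      rw [Nat.cast_zero, zero_add, mul_one] at hz
      have hz' : ‖z‖ + r * h ^ δ ≤ r := by linarith
      have h2 := half 0 z hz' (fun x hx => by
        have hxr : ‖x‖ < r := by
          have := norm_sub_norm_le x z
          linarith
        refine (base x hxr).trans ?_
        have e3 : 1 ≤ h ^ (0 - δ / 4) :=
          Real.one_le_rpow_of_pos_of_le_one_of_nonpos h0 h1 (by linarith)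
        calc (1:ℝ) ≤ D := hD1
          _ = D * 1 := (mul_one _).symm
          _ ≤ _ := mul_le_mul_of_nonneg_left e3 (by linarith))
      rw [zero_add] at h2
      rwa [Nat.cast_zero, zero_add, one_mul]
    | succ j ih =>
      intro hj z hz
      have ihj := ih (by omega)
      obtain ⟨y, hyd⟩ : ∃ y, y = min a ((j + 1) * δ / 4) := ⟨_, rfl⟩
      rw [← hyd] at ihj
      have hj0 : (0:ℝ) ≤ j := Nat.cast_nonneg j
      have hy0 : 0 ≤ y := by rw [hyd]; exact le_min ha.le (by positivity)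
      have hya : y ≤ a := by rw [hyd]; exact min_le_left _ _
      have hz2 : ‖z‖ < 3 / 4 * r - 2 * (κ * r) * (j + 1) - 2 * (κ * r) := by
        refine hz.trans_eq ?_
        push_cast
        ring
      have hnn : 0 ≤ κ * r * (j + 1) := by positivity
      have hzr : ‖z‖ + r * h ^ δ ≤ r := by linarith
      have h2 := half y z hzr (fun x hx => by
        have hxz := norm_sub_norm_le x z
        have e1 := inter y (3 / 4 * r - 2 * (κ * r) * (j + 1)) hy0 (by linarith) ihj 1 (by omega)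
          x (by linarith)
        refine e1.trans ?_
        rw [pow_one, mul_inv_cancel₀ hr.ne', one_mul]
        refine mul_le_mul_of_nonneg_left (rpow_anti h0 h1 ?_) (by linarith)
        have e2 : y / q ≤ δ / 4 := by
          rw [div_le_iff₀ hq0]
          linarith
        have e3 : y * (1 - (1:ℕ) / q) = y - y / q := by push_cast; field_simp
        rw [e3]
        linarith)
      refine h2.trans ?_
      have e4 : min a ((((j + 1 : ℕ) : ℝ) + 1) * δ / 4) ≤ min a (y + δ / 4) := by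
        refine le_min (min_le_left _ _) ?_
        rcases le_total a ((j + 1) * δ / 4) with hc | hc
        · rw [hyd, min_eq_left hc]
          exact (min_le_left _ _).trans (by linarith)
        · rw [hyd, min_eq_right hc]
          refine (min_le_right _ _).trans (le_of_eq ?_)
          push_cast; ring
      exact mul_le_mul_of_nonneg_left (rpow_anti h0 h1 e4) hr.le
  obtain ⟨N', hN''⟩ : ∃ N', N = N' + 1 := ⟨N - 1, by omega⟩
  have hNc : (N:ℝ) = N' + 1 := by rw [hN'']; push_cast; ring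
  have h2 := iter N' (by omega) z (by
    rw [← hNc]
    have := mul_le_mul_of_nonneg_right hκN hr.le
    nlinarith)
  have e1 : min a (((N':ℝ) + 1) * δ / 4) = a := by
    refine min_eq_left ?_
    rw [← hNc]; exact hN'
  rwa [e1] at h2

/-- **[B4-ACC]**, one plane: accuracy of two weakly average free references -/
theorem acc_two (E : Type*) [NormedAddCommGroup E] [InnerProductSpace ℝ E]
    [FiniteDimensional ℝ E] [MeasurableSpace E] [BorelSpace E] (m n : ℕ) :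
    ∃ ε₁ : ℝ, 0 < ε₁ ∧ ∀ (K k₀ : ℕ) (a b δ C₀ c₁ : ℝ), 0 < a → 0 < δ → 0 ≤ C₀ → 0 < c₁ →
      a + δ * (K + m + 1) < b → ∃ ε : ℝ, 0 < ε ∧
      ∀ (T : Submodule ℝ E) (F : Frame m n T) (ν : Measure E) (r h : ℝ)
        (u₁ u₂ : Fin n → REF.E m → ℝ), 0 < r → 0 < h → h ≤ ε →
        Two m n K T F ν ε₁ b δ C₀ c₁ r h u₁ u₂ →
        ∀ i, ∀ k ≤ k₀, ∀ x, ‖x‖ ≤ r / 2 →
          ‖iteratedFDeriv ℝ k (fun x => u₂ i x - u₁ i x) x‖ ≤ r * r⁻¹ ^ k * h ^ (a - δ) := by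
  obtain ⟨ε₁, hε₁, hε₁', hreg⟩ := reg_sol m n
  refine ⟨ε₁, hε₁, fun K k₀ a b δ C₀ c₁ ha hδ hC₀ hc₁ hab => ?_⟩
  obtain ⟨C, hC1, hC⟩ := exists_eta_bound m K
  obtain ⟨N, q, κ, hN1, hN', hqk, hq', hκ, hκ1, hκN⟩ := exists_num ha hδ k₀
  have hq0 : (0:ℝ) < q := by exact_mod_cast (by omega : 0 < q)
  obtain ⟨C', hC'1, hreg⟩ := hreg q
  choose! Kj hKj1 hKj using fun (j : ℕ) (hj : j < q) => interp_scaled m q j hj
  obtain ⟨KK, hKK⟩ : ∃ KK : ℝ, ∀ j < q, Kj j ≤ KK := ⟨∑ j ∈ Finset.range q, |Kj j|,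
    fun j hj => (le_abs_self _).trans
      (Finset.single_le_sum (f := fun k => |Kj k|) (fun _ _ => abs_nonneg _)
        (Finset.mem_range.2 hj))⟩
  have hκinv : 1 ≤ κ⁻¹ := (one_le_inv₀ hκ).2 (by linarith)
  have hKK1 : 1 ≤ KK := (hKj1 0 (by omega)).trans (hKK 0 (by omega))
  obtain ⟨D, hD1, hKD⟩ : ∃ D : ℝ, 1 ≤ D ∧ ∀ j < q, Kj j * (κ⁻¹ ^ j + 2 * C') ≤ D := by
    refine ⟨KK * (κ⁻¹ ^ q + 2 * C'), ?_, fun j hj => ?_⟩
    · have h1 : (1:ℝ) ≤ κ⁻¹ ^ q := one_le_pow₀ hκinv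
      have h2 : (1:ℝ) ≤ κ⁻¹ ^ q + 2 * C' := by linarith
      nlinarith
    · have h1 : κ⁻¹ ^ j ≤ κ⁻¹ ^ q := pow_le_pow_right₀ hκinv hj.le
      have h2 := hKK j hj
      have h3 : 0 ≤ κ⁻¹ ^ j + 2 * C' := by positivity
      exact mul_le_mul h2 (by linarith) h3 (by linarith)
  obtain ⟨ε, hε, hε'⟩ := exists_of_ev
    ((((ev_lt (c := 1) one_pos).and (ev_small (a := δ) (c := κ) hδ hκ)).and
      (ev_absorb (2 * (2 * C / c₁ * C₀)) (a := b - δ * (K + m + 1)) (b := a) (by linarith))).and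
      (ev_small' D (a := δ / 2) (c := 1 / 2) (by positivity) (by norm_num)))
  refine ⟨ε, hε, fun T F ν r h u₁ u₂ hr h0 hh H => ?_⟩
  obtain ⟨⟨⟨h1, hδκ⟩, hab1⟩, hD⟩ := hε' h h0 hh
  have := H.fin
  obtain ⟨Hs, hslab⟩ := H.slab
  have hu₁ := H.sol₁.smooth
  have hu₂ := H.sol₂.smooth
  intro i
  have hd : ContDiff ℝ ∞ (fun x => u₂ i x - u₁ i x) := (hu₂ i).sub (hu₁ i)
  -- one half step
  have half : ∀ (y : ℝ) (x₀ : REF.E m), ‖x₀‖ + r * h ^ δ ≤ r →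
      (∀ x, ‖x - x₀‖ < r * h ^ δ →
        ‖iteratedFDeriv ℝ 1 (fun x => u₂ i x - u₁ i x) x‖ ≤ D * h ^ (y - δ / 4)) →
      |u₂ i x₀ - u₁ i x₀| ≤ r * h ^ min a (y + δ / 4) := by
    intro y x₀ hx₀ hL
    have e1 := sup_step F hslab hu₁ hu₂ hC (by linarith) hr le_rfl h0 h1 hδ.le hC₀ hc₁ H.weak₁
      H.weak₂ hx₀ (H.mass x₀ hx₀) i hL
    exact absorb h0 h1 hr hab1 hD e1
  -- high order bound
  have high : ∀ (z : REF.E m), ‖z‖ < 3 / 4 * r →
      ‖iteratedFDeriv ℝ q (fun x => u₂ i x - u₁ i x) z‖ ≤ r * r⁻¹ ^ q * (2 * C') := by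
    intro z hz
    refine (norm_iter_sub_le (hu₂ i) (hu₁ i) q z).trans ?_
    have e1 := hreg r u₁ hr H.sol₁ i q (by omega) le_rfl z hz
    have e2 := hreg r u₂ hr H.sol₂ i q (by omega) le_rfl z hz
    linarith
  -- interpolation
  have inter : ∀ (y R : ℝ), 0 ≤ y → R ≤ 3 / 4 * r →
      (∀ z : REF.E m, ‖z‖ < R → |u₂ i z - u₁ i z| ≤ r * h ^ y) → ∀ j < q, ∀ x : REF.E m,
      ‖x‖ < R - κ * r →
      ‖iteratedFDeriv ℝ j (fun x => u₂ i x - u₁ i x) x‖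
        ≤ D * (r * r⁻¹ ^ j * h ^ (y * (1 - j / q))) := by
    intro y R hy hR hsup j hj x hx
    have hin : ∀ z : REF.E m, ‖z - x‖ ≤ κ * r → ‖z‖ < R := by
      intro z hz
      have := norm_sub_norm_le z x
      linarith
    have e1 := hKj j hj (fun x => u₂ i x - u₁ i x) x r κ y h (2 * C') hr hκ (by linarith) h0 h1 hy
      hd (fun z hz => hsup z (hin z hz)) (fun z hz => high z ((hin z hz).trans_le hR))
    have e2 : 0 ≤ r * r⁻¹ ^ j * h ^ (y * (1 - j / q)) :=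
      mul_nonneg (by positivity) (Real.rpow_nonneg h0.le _)
    exact e1.trans (mul_le_mul_of_nonneg_right (hKD j hj) e2)
  have base : ∀ x, ‖x‖ < r → ‖iteratedFDeriv ℝ 1 (fun x => u₂ i x - u₁ i x) x‖ ≤ 1 := by
    intro x hxr
    refine (norm_iter_sub_le (hu₂ i) (hu₁ i) 1 x).trans ?_
    have e1 := H.sol₁.small i 1 le_rfl (by omega) x hxr
    have e2 := H.sol₂.small i 1 le_rfl (by omega) x hxr
    rw [pow_one, mul_inv_cancel₀ hr.ne', one_mul] at e1 e2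
    linarith
  have hk₀ : (0:ℝ) ≤ k₀ := Nat.cast_nonneg k₀
  have last := iterate (d := fun x => u₂ i x - u₁ i x) ha hδ hN1 hN' (by omega)
    (by nlinarith) hκ hκN hD1 hr h0 h1 hδκ base half inter
  intro k hk x hx
  have hκr : 0 < κ * r := by positivity
  have h2 := inter a (r * (1 / 2 + 2 * κ)) ha.le (by nlinarith) last k (by omega) x (by
    linarith)
  refine h2.trans ?_
  have e1 : a - δ / 2 ≤ a * (1 - k / q) := by
    have e2 : a * k / q ≤ δ / 4 := by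
      rw [div_le_iff₀ hq0]
      have : (k:ℝ) ≤ k₀ := by exact_mod_cast hk
      nlinarith
    have e3 : a * (1 - k / q) = a - a * k / q := by field_simp
    rw [e3]; linarith
  have e4 : h ^ (a * (1 - k / q)) ≤ h ^ (δ / 2) * h ^ (a - δ) := by
    rw [← Real.rpow_add h0]
    exact rpow_anti h0 h1 (by linarith)
  have e5 : 0 ≤ r * r⁻¹ ^ k * h ^ (a - δ) := mul_nonneg (by positivity) (Real.rpow_nonneg h0.le _)
  calc D * (r * r⁻¹ ^ k * h ^ (a * (1 - k / q)))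
      ≤ D * (r * r⁻¹ ^ k * (h ^ (δ / 2) * h ^ (a - δ))) :=
        mul_le_mul_of_nonneg_left (mul_le_mul_of_nonneg_left e4 (by positivity)) (by linarith)
    _ = D * h ^ (δ / 2) * (r * r⁻¹ ^ k * h ^ (a - δ)) := by ring
    _ ≤ 1 * (r * r⁻¹ ^ k * h ^ (a - δ)) := mul_le_mul_of_nonneg_right (by linarith) e5
    _ = _ := one_mul _

end

end Vale.Agent.P214.BACC
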